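import Vale.Agent.P248.Fam

open MeasureTheory

namespace Vale.Agent.Results.P248.SymmetricInequality

/-- The symmetric Mahler inequality in every dimension. -/
theorem result (n : ℕ) (hn : 1 ≤ n) (K : Set (Fin n → ℝ)) (hcompact : IsCompact K)
    (hconvex : Convex ℝ K) (hint : (interior K).Nonempty) (hsymm : ∀ x ∈ K, -x ∈ K) :
    (4 : ℝ) ^ n / (n.factorial : ℝ) ≤
      (volume K).toReal * (volume {y : Fin n → ℝ | ∀ x ∈ K, ∑ i, y i * x i ≤ 1}).toReal := by
  haveI : Nonempty (Fin n) := ⟨⟨0, hn⟩⟩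
  have h := Vale.Agent.P248.mahler (K := K) ⟨hcompact, hconvex, hint, hsymm⟩
  rw [Fintype.card_fin] at h
  exact h

end Vale.Agent.Results.P248.SymmetricInequality
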