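import Vale.Agent.P248.Final

open MeasureTheory

namespace Vale.Agent.Results.P248.SymmetricMahler

/-- The symmetric Mahler conjecture in every dimension, with its equality case. -/
theorem result (n : ℕ) (hn : 1 ≤ n) (K : Set (Fin n → ℝ)) (hcompact : IsCompact K)
    (hconvex : Convex ℝ K) (hint : (interior K).Nonempty) (hsymm : ∀ x ∈ K, -x ∈ K) :
    (4 : ℝ) ^ n / (n.factorial : ℝ) ≤
      (volume K).toReal * (volume {y : Fin n → ℝ | ∀ x ∈ K, ∑ i, y i * x i ≤ 1}).toReal ∧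
    ((volume K).toReal * (volume {y : Fin n → ℝ | ∀ x ∈ K, ∑ i, y i * x i ≤ 1}).toReal =
        (4 : ℝ) ^ n / (n.factorial : ℝ) ↔
      ∃ (T : (Fin n → ℝ) ≃ₗ[ℝ] (Fin n → ℝ)) (H : Set (Fin n → ℝ)),
        Vale.Agent.P248.IsHanner n H ∧ K = T '' H) := by
  haveI : Nonempty (Fin n) := ⟨⟨0, hn⟩⟩
  have hB : Vale.Agent.P248.Body K := ⟨hcompact, hconvex, hint, hsymm⟩
  have h := Vale.Agent.P248.mahler hB
  rw [Fintype.card_fin] at h
  exact ⟨h, Vale.Agent.P248.equality_iff n hn K hB⟩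

end Vale.Agent.Results.P248.SymmetricMahler
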